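import Vale.Agent.P216.H901D.Inst
import Vale.Agent.P216.D754.Goals2

/-!
# P216-D, D1: the assembly of `FLOut M` from the blocks

`N`: the model sphere, `G : N → M`, `f : M → N` Lipschitz.  `flOut_D1`: `FLOut M (m + 1) B k` from
`SignGoal`, `OmegaOut` for `N` and `M`, the non-vanishing `BNE` of `(Ωh)^*`, `h = f ∘ G`, and the
injectivity `TrInj` of the pull backs.
-/

set_option linter.unusedVariables false
set_option linter.unusedSectionVars false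

open Set BoundedContinuousFunction

namespace Vale.Agent.P216.H901D

open Vale.Agent.P216.AS Vale.Agent.P216.PS Vale.Agent.P216.MV337 Vale.Agent.P216.D337
open Vale.Agent.P216.B64 (OmegaOut HU hres hpull UMap)
open Vale.Agent.P216.C337 (PY PY_mono TrY)
open Vale.Agent.P216.H901 (PM PMa Hp ovr Cu cub bdc tr on Triv Wang Based Free Mono mono_empty
  free_of_triv)
open Vale.Agent.P216.H754B (cuM_enc WangOp PMOp XP GP opP sg OmegaGoal0 SignGoal OQ exists_OQ omF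
  basedOf exists_om_ne)
open Vale.Agent.P216.D754 (FamMap TrInj YM YP sndHom revFL)

variable {k : Type} [Field k]

/-- The action of a map of persistence modules on the families. -/
noncomputable def famMap {L : ℝ} {A A' : PM k} (φ : PMHom L A A') : FamMap A A' where
  φ := φ.fam
  smul a z w h t ht := by
    change φ.r t ht (w.z (L * t) _) = a • φ.r t ht (z.z (L * t) _)
    rw [h, map_smul]

section pull

variable {E F : Type} [PseudoMetricSpace E] [PseudoMetricSpace F] {B : ℝ → Set F}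
  {hB : Mono B} {q : ℕ}

/-- Pull backs of a family along equal maps, at equal levels. -/
theorem pull_fam_eq (z : (PMa k B hB q).Fam) {A : Set E} {φ φ' : E → F} {T T' : ℝ} (hT : 0 < T)
    (hT' : 0 < T') (e : T = T') (h : IsMap (tr E) (tr F) A (B T) φ)
    (h' : IsMap (tr E) (tr F) A (B T') φ') (he : EqOn φ φ' A) :
    pull (on k) h q (z.z T hT) = pull (on k) h' q (z.z T' hT') := by
  subst e
  have e1 := LinearMap.congr_fun (pullR_congr (χ := on k) (n := q) h h' (empty_subset _)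
    (mapsTo_empty _ _) (mapsTo_empty _ ∅) he) (H83.absE k (B T) q (z.z T hT))
  obtain ⟨y, hy, hz⟩ := H.exists_mk (z.z T hT)
  rw [← hz] at e1 ⊢
  exact (H83.absE k A q).injective e1

end pull

section loops

variable {M N : Type} [MetricSpace M] [MetricSpace N] [CompactSpace N] {f : M → N} {K : ℝ}

/-- The map `w ↦ f ∘ w` of the free loops. -/
noncomputable def flHom (hf : LipC f K) (hK : 0 < K) :
    SpHom K (fun t => FL M t) (fun _ => ∅) (fun t => FL N t) (fun _ => ∅) :=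
  SpHom.const hK (fun w : ℝ →ᵇ M => gm f K w) (fun s t _ h => FL_mono h) mono_empty
    (fun t ht => map_gm_FL hf hK t) fun t ht => mapsTo_empty _ _

/-- The map `(Λf)^*` of the persistence modules. -/
noncomputable def flPM (k : Type) [Field k] (hf : LipC f K) (hK : 0 < K) (q : ℕ) :
    PMHom K (XP k N q) (XP k M q) :=
  (flHom hf hK).pma k H754B.mono_FL H754B.mono_FL q

/-- `(Λf)^*` commutes with the reversal. -/
theorem flPM_rev (hf : LipC f K) (hK : 0 < K) (q : ℕ) (z : (XP k N q).Fam) (t : ℝ)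
    (ht : 0 < t) : (revFL k M q).r t ht (((famMap (flPM k hf hK q)).φ z).z t ht) =
      ((famMap (flPM k hf hK q)).φ ((revFL k N q).fam z)).z t ht := by
  have hKt : 0 < K * t := mul_pos hK ht
  have m1 : IsMap (tr (ℝ →ᵇ M)) (tr (ℝ →ᵇ N)) (FL M t) (FL N (K * t))
      ((fun w : ℝ →ᵇ M => gm f K w) ∘ H754B.rv t) :=
    (map_gm_FL hf hK t).comp (H754B.map_rv t fun w hw => H754B.rv_mem_FL hw le_rfl)
  have m2 : IsMap (tr (ℝ →ᵇ M)) (tr (ℝ →ᵇ N)) (FL M t) (FL N (K * t))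
      (H754B.rv (K * t) ∘ fun w : ℝ →ᵇ M => gm f K w) :=
    (H754B.map_rv (K * t) fun w hw => H754B.rv_mem_FL hw le_rfl).comp (map_gm_FL hf hK t)
  have e := pull_fam_eq z hKt hKt rfl m1 m2 fun w hw => (rv_gm hf hK hw.1 t).symm
  obtain ⟨y, hy, hz⟩ := H.exists_mk (z.z (K * t) hKt)
  have e1 : (revFL k M q).r t ht (((famMap (flPM k hf hK q)).φ z).z t ht) =
      pull (on k) m1 q (z.z (K * t) hKt) := by
    change (revFL k M q).r t ht ((flPM k hf hK q).r t ht (z.z (K * t) hKt)) = _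
    rw [← hz]
    rfl
  have e2 : ((famMap (flPM k hf hK q)).φ ((revFL k N q).fam z)).z t ht =
      pull (on k) m2 q (z.z (K * t) hKt) := by
    change (flPM k hf hK q).r t ht ((revFL k N q).r (K * t) hKt (z.z (K * t) hKt)) = _
    rw [← hz]
    rfl
  rw [e1, e2, e]

end loops

/-! ### The scalars -/

/-- **(B)**: the map `w ↦ h ∘ w (· / K)` of the based loops does not kill the classes `om j`. -/
def BNE (k : Type) [Field k] {N : Type} [MetricSpace N] (m : ℕ) (h : N → N) (K : ℝ) (y : N) :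
    Prop :=
  ∀ B : ℝ, 0 ≤ B → ∀ (O : OmegaOut N m (h y) B k) (j : ℕ), ∃ T : ℝ, ∀ t, T ≤ t →
    ∀ Φ : (ℝ →ᵇ N) → (ℝ →ᵇ N), (∀ w ∈ P y y t, ∀ u, Φ w u = h (w (u / K))) →
      ∀ hΦ : UMap (P y y t) (P (h y) (h y) (K * t)) Φ,
        hpull k hΦ (j * m) (O.om j (K * t)) ≠ 0

section scal

variable {M N : Type} [MetricSpace M] [CompactSpace M] [MetricSpace N] [CompactSpace N] {m : ℕ}
  {K K' : ℝ} {G : N → M} {f : M → N} {h : N → N} {y₀ : N}

theorem bne_fam (hb : BNE k m h K y₀) {B : ℝ} (hB : 0 ≤ B) (O : OmegaOut N m (h y₀) B k)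
    (j q : ℕ) (hq : q = j * m) (g : (GP k (h y₀) q).Fam) (hg : OQ O j q g) :
    ∃ T : ℝ, ∀ t, T ≤ t → ∀ (hKt : 0 < K * t) (Φ : (ℝ →ᵇ N) → (ℝ →ᵇ N)),
      (∀ w ∈ P y₀ y₀ t, ∀ u, Φ w u = h (w (u / K))) →
      ∀ hΦ : IsMap (tr (ℝ →ᵇ N)) (tr (ℝ →ᵇ N)) (P y₀ y₀ t) (P (h y₀) (h y₀) (K * t)) Φ,
        pull (on k) hΦ q (g.z (K * t) hKt) ≠ 0 := by
  subst hq
  obtain ⟨T, hT⟩ := hb B hB O j
  refine ⟨T, fun t htT hKt Φ hΦ hm h0 => ?_⟩
  obtain ⟨a, ha⟩ := hg.line.fam hB (omF O j)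
  apply hT t htT Φ hΦ hm
  have e : O.om j (K * t) = a • g.z (K * t) hKt := ha (K * t) hKt
  exact (congrArg (pull (on k) hm (j * m)) e).trans ((LinearMap.map_smul (pull (on k) hm (j * m))
    a (g.z (K * t) hKt)).trans ((congrArg (fun x => a • x) h0).trans (smul_zero a)))

/-- `f ∘ G` is Lipschitz. -/
theorem lipC_comp (hG : LipC G K) (hf : LipC f K') (hK' : 0 < K') : LipC (f ∘ G) (K' * K) :=
  fun x y => (hf _ _).trans (by
    rw [mul_assoc]
    exact mul_le_mul_of_nonneg_left (hG x y) hK'.le)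

theorem gm_gm (hG : LipC G K) (hK : 0 < K) (hf : LipC f K') (hK' : 0 < K') {w : ℝ →ᵇ N}
    (hw : Lip w) : gm f K' (gm G K w) = gm (f ∘ G) (K' * K) w := by
  have hKK : 0 < K' * K := mul_pos hK' hK
  have h1 : Lip (gm G K w) := fun u v => by
    rw [gm_apply hG hK hw, gm_apply hG hK hw]
    exact lip_gm hG hK hw u v
  ext u
  rw [gm_apply hf hK' h1, gm_apply hG hK hw, gm_apply (lipC_comp hG hf hK') hKK hw, div_div]
  rfl

/-- The based loops: `(ΩG)^* om j = c • om j`. -/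
theorem exists_cG {BM BN : ℝ} (hBM : 0 ≤ BM) (hBN : 0 ≤ BN) (hG : LipC G K) (hK : 0 < K)
    (hf : LipC f K') (hK' : 0 < K') (hb : BNE k m (f ∘ G) (K' * K) y₀) {Bh : ℝ} (hBh : 0 ≤ Bh)
    (Oh : OmegaOut N m ((f ∘ G) y₀) Bh k) (OM : OmegaOut M m (G y₀) BM k)
    (ON : OmegaOut N m y₀ BN k) (j : ℕ) : ∃ c : k, c ≠ 0 ∧ ∀ t (ht : 0 < t) (hKt : 0 < K * t),
      ((omG hG hK y₀).pma k (H754B.mono_P y₀) (H754B.mono_P (G y₀)) (m * j)).r t ht
        (((basedOf hBM OM).om j).z (K * t) hKt) = c • ((basedOf hBN ON).om j).z t ht := by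
  obtain ⟨c, hc⟩ := exists_scalar_hom (b := basedOf hBM OM) (b' := basedOf hBN ON) hBN j
    ((omG hG hK y₀).pma k (H754B.mono_P y₀) (H754B.mono_P (G y₀)) (m * j))
  obtain ⟨a, ha⟩ := exists_scalar_hom (b := basedOf hBh Oh) (b' := basedOf hBM OM) hBM j
    ((omG hf hK' (G y₀)).pma k (H754B.mono_P (G y₀)) (H754B.mono_P (f (G y₀))) (m * j))
  refine ⟨c, ?_, hc⟩
  rintro rfl
  have hKK : 0 < K' * K := mul_pos hK' hK
  obtain ⟨T, hT⟩ := bne_fam hb hBh Oh j (m * j) (mul_comm m j) ((basedOf hBh Oh).om j)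
    (exists_OQ hBh Oh j (m * j) (mul_comm m j)).choose_spec
  have ht : 0 < max T 1 := lt_max_of_lt_right one_pos
  have hKt : 0 < K * max T 1 := mul_pos hK ht
  have hKKt : 0 < K' * (K * max T 1) := mul_pos hK' hKt
  have hKKt' : 0 < K' * K * max T 1 := mul_pos hKK ht
  have m1 : IsMap (tr (ℝ →ᵇ N)) (tr (ℝ →ᵇ N)) (P y₀ y₀ (max T 1))
      (P (f (G y₀)) (f (G y₀)) (K' * (K * max T 1)))
      ((fun w : ℝ →ᵇ M => gm f K' w) ∘ fun w : ℝ →ᵇ N => gm G K w) :=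
    (map_gm_P hf hK' (G y₀) (G y₀) (K * max T 1)).comp (map_gm_P hG hK y₀ y₀ (max T 1))
  have m2 : IsMap (tr (ℝ →ᵇ N)) (tr (ℝ →ᵇ N)) (P y₀ y₀ (max T 1))
      (P ((f ∘ G) y₀) ((f ∘ G) y₀) (K' * K * max T 1))
      (fun w : ℝ →ᵇ N => gm (f ∘ G) (K' * K) w) :=
    map_gm_P (lipC_comp hG hf hK') hKK y₀ y₀ (max T 1)
  apply hT (max T 1) (le_max_left _ _) hKKt' (fun w => gm (f ∘ G) (K' * K) w)
    (fun w hw u => gm_apply (lipC_comp hG hf hK') hKK hw.1 u) m2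
  have e := pull_fam_eq ((basedOf hBh Oh).om j) hKKt hKKt' (mul_assoc K' K (max T 1)).symm m1 m2
    fun w hw => gm_gm hG hK hf hK' hw.1
  rw [← e]
  have e1 : pull (on k) m1 (m * j) (((basedOf hBh Oh).om j).z _ hKKt) =
      ((omG hG hK y₀).pma k (H754B.mono_P y₀) (H754B.mono_P (G y₀)) (m * j)).r (max T 1) ht
        (((omG hf hK' (G y₀)).pma k (H754B.mono_P (G y₀)) (H754B.mono_P (f (G y₀))) (m * j)).r
          (K * max T 1) hKt (((basedOf hBh Oh).om j).z _ hKKt)) := by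
    obtain ⟨y, hy, hz⟩ := H.exists_mk (((basedOf hBh Oh).om j).z _ hKKt)
    rw [← hz]
    rfl
  rw [e1, ha, map_smul, hc, zero_smul, smul_zero]
  rfl

/-- The based loops: `(Ωh)^* om j = c • om j`. -/
theorem exists_cH {BN : ℝ} (hBN : 0 ≤ BN) (hh : LipC h K) (hK : 0 < K)
    (hb : BNE k m h K y₀) {Bh : ℝ} (hBh : 0 ≤ Bh)
    (Oh : OmegaOut N m (h y₀) Bh k) (ON : OmegaOut N m y₀ BN k) (j : ℕ) :
    ∃ c : k, c ≠ 0 ∧ ∀ t (ht : 0 < t) (hKt : 0 < K * t),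
      ((omG hh hK y₀).pma k (H754B.mono_P y₀) (H754B.mono_P (h y₀)) (m * j)).r t ht
        (((basedOf hBh Oh).om j).z (K * t) hKt) = c • ((basedOf hBN ON).om j).z t ht := by
  obtain ⟨c, hc⟩ := exists_scalar_hom (b := basedOf hBh Oh) (b' := basedOf hBN ON) hBN j
    ((omG hh hK y₀).pma k (H754B.mono_P y₀) (H754B.mono_P (h y₀)) (m * j))
  refine ⟨c, ?_, hc⟩
  rintro rfl
  obtain ⟨T, hT⟩ := bne_fam hb hBh Oh j (m * j) (mul_comm m j) ((basedOf hBh Oh).om j)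
    (exists_OQ hBh Oh j (m * j) (mul_comm m j)).choose_spec
  have ht : 0 < max T 1 := lt_max_of_lt_right one_pos
  have hKt : 0 < K * max T 1 := mul_pos hK ht
  apply hT (max T 1) (le_max_left _ _) hKt (fun w => gm h K w)
    (fun w hw u => gm_apply hh hK hw.1 u) (map_gm_P hh hK y₀ y₀ (max T 1))
  exact (hc (max T 1) ht hKt).trans (zero_smul k _)

end scal

/-! ### The assembly -/

section main

variable {M N : Type} [MetricSpace M] [CompactSpace M] [MetricSpace N] [CompactSpace N] {m : ℕ}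
  {K K' : ℝ} {G : N → M} {f : M → N}

/-- The factorisation `(Λh)^* = (ΛG)^* (Λf)^*` through the pull backs. -/
theorem hfac (hG : LipC G K) (hK : 0 < K) (hf : LipC f K') (hK' : 0 < K') {y₀ : N} {ℓ : ℝ}
    {Tp Tm : N → ℝ → N} (C : Caps (m + 1) N y₀) (hp : MV337.Tr C.Dp y₀ ℓ Tp)
    (hm : MV337.Tr C.Dm y₀ ℓ Tm) (q : ℕ) (z : (XP k N q).Fam) (t : ℝ) (ht : 0 < t) :
    ((famMap ((trivHomG C hG hK hp hm).OX k q)).φ ((sndHom k G q).fam.φ
      ((famMap (flPM k hf hK' q)).φ z))).z t ht =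
    ((famMap ((trivHomG C (lipC_comp hG hf hK') (mul_pos hK' hK) hp hm).OX k q)).φ
      ((sndHom k (f ∘ G) q).fam.φ z)).z t ht := by
  have hKK : 0 < K' * K := mul_pos hK' hK
  have hKt : 0 < K * t := mul_pos hK ht
  have hKKt : 0 < K' * (K * t) := mul_pos hK' hKt
  have hKKt' : 0 < K' * K * t := mul_pos hKK ht
  have a1 : IsMap (tr (ℝ →ᵇ N)) (tr (N × (ℝ →ᵇ M))) (FL N t) (PY G G univ (K * t))
      (phiY G K) := (evG hG hK).map t ht
  have a2 : IsMap (tr (N × (ℝ →ᵇ M))) (tr (ℝ →ᵇ M)) (PY G G univ (K * t)) (FL M (K * t))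
      Prod.snd := D754.umap_snd (G := G) (K * t)
  have b1 : IsMap (tr (ℝ →ᵇ N)) (tr (N × (ℝ →ᵇ N))) (FL N t)
      (PY (f ∘ G) (f ∘ G) univ (K' * K * t)) (phiY (f ∘ G) (K' * K)) :=
    (evG (lipC_comp hG hf hK') hKK).map t ht
  have b2 : IsMap (tr (N × (ℝ →ᵇ N))) (tr (ℝ →ᵇ N)) (PY (f ∘ G) (f ∘ G) univ (K' * K * t))
      (FL N (K' * K * t)) Prod.snd := D754.umap_snd (G := f ∘ G) (K' * K * t)
  have m1 : IsMap (tr (ℝ →ᵇ N)) (tr (ℝ →ᵇ N)) (FL N t) (FL N (K' * (K * t)))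
      ((fun w : ℝ →ᵇ M => gm f K' w) ∘ (Prod.snd ∘ phiY G K)) :=
    (map_gm_FL hf hK' (K * t)).comp (a2.comp a1)
  have m2 : IsMap (tr (ℝ →ᵇ N)) (tr (ℝ →ᵇ N)) (FL N t) (FL N (K' * K * t))
      (Prod.snd ∘ phiY (f ∘ G) (K' * K)) := b2.comp b1
  have e := pull_fam_eq z hKKt hKKt' (mul_assoc K' K t).symm m1 m2
    fun w hw => gm_gm hG hK hf hK' hw.1
  have e1 : ((famMap ((trivHomG C hG hK hp hm).OX k q)).φ ((sndHom k G q).fam.φ
      ((famMap (flPM k hf hK' q)).φ z))).z t ht = pull (on k) m1 q (z.z _ hKKt) := by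
    change pull (on k) a1 q (pull (on k) a2 q (pull (on k) (map_gm_FL hf hK' (K * t)) q
      (z.z _ hKKt))) = _
    obtain ⟨y, hy, hz⟩ := H.exists_mk (z.z _ hKKt)
    rw [← hz]
    rfl
  have e2 : ((famMap ((trivHomG C (lipC_comp hG hf hK') (mul_pos hK' hK) hp hm).OX k q)).φ
      ((sndHom k (f ∘ G) q).fam.φ z)).z t ht = pull (on k) m2 q (z.z _ hKKt') := by
    change pull (on k) b1 q (pull (on k) b2 q (z.z _ hKKt')) = _
    obtain ⟨y, hy, hz⟩ := H.exists_mk (z.z _ hKKt')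
    rw [← hz]
    rfl
  rw [e1, e2, e]

/-- **D1**: `FLOut M (m + 1) B k` from the blocks. The constant `B` does not depend on the
field. -/
theorem flOut_D1 (hS : SignGoal) (hO : OmegaGoal0) (hm3 : 3 ≤ m) {ρ : ℝ} (hρ : 0 < ρ)
    (hU : LS.UniqSeg N ρ)
    (e : N ≃ₜ Metric.sphere (0 : EuclideanSpace ℝ (Fin (m + 1 + 1))) 1)
    (hG : LipC G K) (hK : 0 < K) (hf : LipC f K') (hK' : 0 < K') (y₀ : N) {BM r r' : ℝ}
    (hBM : 0 ≤ BM) (hr : 0 ≤ r) (hr' : 0 ≤ r') :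
    ∃ B : ℝ, 0 < B ∧ ∀ (k : Type) [Field k], (2 : k) ≠ 0 →
      Nonempty (OmegaOut M m (G y₀) BM k) → BNE k m (f ∘ G) (K' * K) y₀ →
      TrInj G r k → TrInj (f ∘ G) r' k → Nonempty (FLOut M (m + 1) B k) ∧
        ∀ q, B64.Deg (m + 1) q → ∃ z : (XP k N q).Fam, ∃ t ht,
          ((famMap (flPM k hf hK' q)).φ z).z t ht ≠ 0 := by
  have hKK : 0 < K' * K := mul_pos hK' hK
  have hh := lipC_comp hG hf hK'
  obtain ⟨BN, hBN, hON⟩ := hO (m + 1) (by omega) N ρ hρ hU ⟨e⟩ y₀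
  obtain ⟨Bh, hBh, hOh⟩ := hO (m + 1) (by omega) N ρ hρ hU ⟨e⟩ (f (G y₀))
  obtain ⟨C⟩ := H388.stCaps (m + 1) N y₀ (by omega) ⟨e⟩
  obtain ⟨ℓ, Tp, Tm, hp, hm⟩ := exists_tracks₂ C hρ hU
  obtain ⟨B1, hF1⟩ := free_of_triv (by omega : 2 ≤ m) (trivOf C hp hm) BN BN 0 hBN.le hBN.le
  obtain ⟨B2, hF2⟩ := free_of_triv (by omega : 2 ≤ m) (trivG C hG hK hp hm) BM BM 0 hBM hBM
  obtain ⟨B3, hF3⟩ := free_of_triv (by omega : 2 ≤ m) (trivG C hh hKK hp hm) Bh Bh 0 hBh.le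
    hBh.le
  have hB : 0 < max (0 : ℝ) 1 + 2 * BM + 2 * max B2 0 + r := by
    have h1 := le_max_right (0 : ℝ) 1
    have h2 := le_max_right B2 0
    linarith
  refine ⟨_, hB, fun k _ h2 hOM hb t1 t2 => ?_⟩
  obtain ⟨ON⟩ := hON k h2
  obtain ⟨Oh⟩ := hOh k h2
  obtain ⟨OM⟩ := hOM
  obtain ⟨F1⟩ := hF1 k h2 (basedOf hBN.le ON)
  obtain ⟨F2⟩ := hF2 k h2 (basedOf hBM OM)
  obtain ⟨F3⟩ := hF3 k h2 (basedOf hBh.le Oh)
  obtain ⟨h3, h4⟩ := hS m (by omega) N ρ hρ hU ⟨e⟩ y₀ C ℓ Tp Tm hp hm k h2 BN BN 0 (max B1 0)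
    hBN.le hBN.le (basedOf hBN.le ON) (H754B.Free.mono F1 (le_max_left _ _))
  choose cG hcG0 hcG using exists_cG hBM hBN.le hG hK hf hK' hb hBh.le Oh OM ON
  choose cH hcH0 hcH using exists_cH hBN.le hh hKK hb hBh.le Oh ON
  exact D754.flOut_of' (n := m + 1) (by omega) rfl h2 hBN.le hBN.le (le_max_right B1 0) hBM
    (le_max_right B2 0) (le_max_right B3 0)
    (H754B.Free.mono F1 (le_max_left _ _)) ((H754B.trivOp C hp hm).wangOp h2) h3
    (fun h => h4 (by omega))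
    (H754B.Free.mono F2 (le_max_left _ _)) hcG0
    (fun j => cf_hom ((trivHomG C hG hK hp hm).wangHom h2) hcG _ _ j)
    (H754B.Free.mono F3 (le_max_left _ _)) hcH0
    (fun j => cf_hom ((trivHomG C hh hKK hp hm).wangHom h2) hcH _ _ j)
    (fun q => famMap ((trivHomG C hh hKK hp hm).OX k q))
    (fun j hj t ht => hom_x ((trivHomG C hh hKK hp hm).wangHom h2) hcH (le_max_right B1 0) _ _ j
      hj t ht (mul_pos hKK ht))
    (fun j t ht => hom_y ((trivHomG C hh hKK hp hm).wangHom h2) hcH _ _ j t ht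
      (mul_pos hKK ht))
    hr hr' t1 t2 (fun q => famMap (flPM k hf hK' q)) (fun q z t ht => flPM_rev hf hK' q z t ht)
    (fun q => famMap ((trivHomG C hG hK hp hm).OX k q))
    (fun q z t ht => hfac hG hK hf hK' C hp hm q z t ht)

end main

end Vale.Agent.P216.H901D
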