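import Vale.Agent.P216.H901D.Asm
import Vale.Agent.P216.D337.TrInj
import Vale.Agent.P216.H894.Bne
import Vale.Agent.P216.H779D.DegG
import Vale.Agent.P216.D311.Bridge
import Vale.Agent.P216.H754B.XG1

/-!
# P216-D, D1: `FLOut M` for Lipschitz maps `f : M → Rnd (m + 1)`, `G : Rnd (m + 1) → M` with
`f ∘ G` homotopic to the standard map of degree `D ≠ 0`
-/

set_option linter.unusedVariables false
set_option linter.unusedSectionVars false

open Set BoundedContinuousFunction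

namespace Vale.Agent.P216.H901D

open Vale.Agent.P216.AS Vale.Agent.P216.PS Vale.Agent.P216.MV337 Vale.Agent.P216.D337
open Vale.Agent.P216.Sl (Nrm CocL ExL)
open Vale.Agent.P216.H779D (Sq powS cS)
open Vale.Agent.P216.Q633 (Rnd rndHomeo uniqSeg_rnd)
open Vale.Agent.P216.D311 (powR simplyConnected_rnd)
open Vale.Agent.P216.B64 (OmegaOut hpull UMap)
open Vale.Agent.P216.H901 (PM)
open Vale.Agent.P216.H754B (XP GP)
open Vale.Agent.P216.D754 (FamMap TrInj)
open Vale.Agent.P216.D246 (LocEuc)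

section bne

variable {N : Type} [MetricSpace N] [CompactSpace N] {m : ℕ} {h : N → N} {K : ℝ}

/-- `BNE` for a self map of a sphere which multiplies the classes of top degree by `D ≠ 0`. -/
theorem bne_of_deg (hm : 1 ≤ m) {ρ : ℝ} (hρ : 0 < ρ) (hU : LS.UniqSeg N ρ)
    (e : N ≃ₜ Metric.sphere (0 : EuclideanSpace ℝ (Fin (m + 1 + 1))) 1)
    (hK : 0 < K) (hh : LipC h K) (y₀ : N) (k : Type) [Field k] {D : k} (hD : D ≠ 0)
    (hdeg : ∀ f : List N → k, Nrm f → CocL (univ : Set N) (m + 1) f →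
      ExL (univ : Set N) (m + 1) fun l => f (l.map h) - D * f l) : BNE k m h K y₀ := by
  obtain ⟨s, hs, H⟩ := H894.omegaDeg_ne (n := m + 1) (by omega) hρ hU e hK hh y₀
  intro B hB O j
  refine ⟨j * s, fun t ht Φ hΦ hm' => ?_⟩
  exact H k D hD hdeg B hB O j t ht Φ hΦ hm'

end bne

/-- **D1**: the free loops of a closed manifold `M` which dominates, and is dominated by, the
round sphere rationally. The constant `B` does not depend on the field `k`. -/
theorem flOut_fin {M : Type} [MetricSpace M] [CompactSpace M] [SimplyConnectedSpace M] {m : ℕ}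
    (hm : 3 ≤ m) (loc : LocEuc M (m + 1)) {ρ : ℝ} (hρ : 0 < ρ) (hU : LS.UniqSeg M ρ)
    {f : C(M, Rnd (m + 1))} {G : C(Rnd (m + 1), M)} {D : ℤ} {K K' : ℝ}
    (hG : LipC G K) (hK : 0 < K) (hf : LipC f K') (hK' : 0 < K')
    (h : (f.comp G).Homotopic (powR m D)) :
    ∃ B : ℝ, 0 < B ∧ ∀ (k : Type) [Field k], (2 : k) ≠ 0 → (D : k) ≠ 0 →
      Nonempty (FLOut M (m + 1) B k) ∧
        ∀ q, B64.Deg (m + 1) q → ∃ z : (XP k (Rnd (m + 1)) q).Fam, ∃ t ht,
          ((famMap (flPM k hf hK' q)).φ z).z t ht ≠ 0 := by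
  have : ConnectedSpace M := inferInstance
  have hS : SimplyConnectedSpace (Rnd (m + 1)) := simplyConnected_rnd (m + 1) (by omega)
  have : ConnectedSpace (Rnd (m + 1)) := inferInstance
  obtain ⟨y₀⟩ : Nonempty (Rnd (m + 1)) := inferInstance
  let e : Rnd (m + 1) ≃ₜ Sq m := rndHomeo (m + 1)
  let f₀ : C(M, Sq m) := (e : C(Rnd (m + 1), Sq m)).comp f
  let g₀ : C(Sq m, M) := G.comp (e.symm : C(Sq m, Rnd (m + 1)))
  have h₀ : (f₀.comp g₀).Homotopic (powS m D) := by
    rw [← H779D.conj_powR]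
    have h1 : ((e : C(Rnd (m + 1), Sq m)).comp ((f.comp G).comp
        (e.symm : C(Sq m, Rnd (m + 1))))).Homotopic ((e : C(Rnd (m + 1), Sq m)).comp
          ((powR m D).comp (e.symm : C(Sq m, Rnd (m + 1))))) :=
      ContinuousMap.Homotopic.comp (ContinuousMap.Homotopic.refl _)
        (ContinuousMap.Homotopic.comp h (ContinuousMap.Homotopic.refl _))
    exact h1
  obtain ⟨BM, hBM, hOM⟩ := D311.omega_of_deg M (by omega) loc hρ hU (G y₀) h₀
  have hUN : LS.UniqSeg (Rnd (m + 1)) Real.pi := uniqSeg_rnd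
  have hr : 0 < ρ / 2 := half_pos hρ
  have hr' : (0 : ℝ) < Real.pi / 2 := half_pos Real.pi_pos
  obtain ⟨B, hB, H⟩ := flOut_D1 H754B.signGoal H754B.omegaGoal0 hm Real.pi_pos hUN e hG hK hf hK'
    y₀ hBM.le (add_pos hr hr).le (add_pos hr' hr').le
  refine ⟨B, hB, fun k _ h2 hD => ?_⟩
  have hm1 : 1 ≤ m := by omega
  have hw0 : ¬ ExL (univ : Set (Sq m)) (m + 1) (cS k m) := H779D.not_exL_cS hm1
  have hw : CocL (univ : Set (Sq m)) (m + 1) (cS k m) := ⟨_, H779D.epsS_pos m, H779D.cS_coc⟩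
  have hfg : ExL (univ : Set (Sq m)) (m + 1) fun l =>
      cS k m (l.map fun x => f₀ (g₀ x)) - (D : k) * cS k m l := H779D.deg_all hm1 h₀ hw
  refine H k h2 (hOM k ⟨h2, hD⟩) ?_ ?_ ?_
  · exact bne_of_deg hm1 Real.pi_pos hUN e (mul_pos hK' hK) (lipC_comp hG hf hK') y₀ k hD
      fun w _ hw => H779D.deg_rnd hm1 h hw
  · obtain ⟨τ, hτ⟩ := D311.exists_tau (by omega) loc h2 (H779D.omc_cocL k f₀)
      (H779D.not_exL_omc hm1 h₀ k hD) (half_pos hr)
    have h1 := trInj_deg e g₀.continuous hD hw0 hfg hU hr (half_lt_self hρ) (half_lt_self hr) τ hτ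
    have e1 : (fun x : Rnd (m + 1) => g₀ (e x)) = G := by
      funext x
      exact congrArg G (e.symm_apply_apply x)
    rwa [e1] at h1
  · have h1 := trInj_self hm1 e f₀.continuous g₀.continuous hD hw hw0 hfg hUN hr'
      (half_lt_self Real.pi_pos)
    have e1 : (fun x : Rnd (m + 1) => e.symm (f₀ (g₀ (e x)))) = f ∘ G := by
      funext x
      change e.symm (e (f (G (e.symm (e x))))) = f (G x)
      rw [e.symm_apply_apply, e.symm_apply_apply]
    rwa [e1] at h1


end Vale.Agent.P216.H901D
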