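import Vale.Agent.P216.H754B.Out

/-!
# Morphisms of Wang data (P216-D, block [D-WANG])

`PMHom L A A'`: a natural map of persistence modules with the time change `t ↦ L * t`.
`WangHom L w w' φG φX`: a morphism of Wang data.  If it maps the classes `om j` of the based loops
to `a j • om' j`, then `cf (j + 1) * a j = a (j + 1) * cf' (j + 1)`, and the classes `x j`, `y j`
are mapped to `a j • x' j`, `a j • y' j`.
-/

set_option linter.unusedVariables false

namespace Vale.Agent.P216.H901D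

open Vale.Agent.P216.H901 Vale.Agent.P216.H754B

variable {k : Type} [Field k]

/-- A natural map of persistence modules, with the time change `t ↦ L * t`. -/
structure PMHom (L : ℝ) (A A' : PM k) where
  L0 : 0 < L
  r : ∀ t, 0 < t → A.V (L * t) →ₗ[k] A'.V t
  nat : ∀ s t (hs : 0 < s) (h : s ≤ t) (ht : 0 < t) (hLs : 0 < L * s) (hL : L * s ≤ L * t) x,
    A'.ρ s t hs h (r t ht x) = r s hs (A.ρ (L * s) (L * t) hLs hL x)

section Hom

variable {L : ℝ} {A A' B B' : PM k}

/-- The image of a compatible family. -/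
def PMHom.fam (φ : PMHom L A A') (o : A.Fam) : A'.Fam where
  z t ht := φ.r t ht (o.z (L * t) (mul_pos φ.L0 ht))
  comp s t hs h := by
    rw [φ.nat s t hs h _ (mul_pos φ.L0 hs) (mul_le_mul_of_nonneg_left h φ.L0.le), o.comp]

/-- The interleavings commute with the maps, on the compatible families. -/
structure IntlHom {c c' : ℝ} (I : Intl A B c) (I' : Intl A' B' c') (hc : 0 ≤ c) (hc' : 0 ≤ c')
    (φ : PMHom L A A') (ψ : PMHom L B B') : Prop where
  f : ∀ o : A.Fam, I'.fFam hc' (φ.fam o) = ψ.fam (I.fFam hc o)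
  g : ∀ o : B.Fam, I'.symm.fFam hc' (ψ.fam o) = φ.fam (I.symm.fFam hc o)

variable {c c' : ℝ} {I : Intl A B c} {I' : Intl A' B' c'} {φ : PMHom L A A'} {ψ : PMHom L B B'}

theorem IntlHom.symm {hc : 0 ≤ c} {hc' : 0 ≤ c'} (h : IntlHom I I' hc hc' φ ψ) :
    IntlHom I.symm I'.symm hc hc' ψ φ := ⟨h.g, h.f⟩

theorem fFam_symm_fFam (I : Intl A B c) (hc : 0 ≤ c) (o : B.Fam) :
    I.fFam hc (I.symm.fFam hc o) = o :=
  PM.Fam.ext' fun s hs => I.f_f_fam hc o hs (by linarith) le_rfl

theorem symm_fFam_fFam (I : Intl A B c) (hc : 0 ≤ c) (o : A.Fam) :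
    I.symm.fFam hc (I.fFam hc o) = o :=
  fFam_symm_fFam I.symm hc o

/-- It is enough that the maps `g` commute on the families. -/
theorem IntlHom.of_gFam (hc : 0 ≤ c) (hc' : 0 ≤ c')
    (h : ∀ o : B.Fam, I'.symm.fFam hc' (ψ.fam o) = φ.fam (I.symm.fFam hc o)) :
    IntlHom I I' hc hc' φ ψ := by
  refine ⟨fun o => ?_, h⟩
  have e := h (I.fFam hc o)
  rw [symm_fFam_fFam] at e
  rw [← e, fFam_symm_fFam]

/-- It is enough that `g s (s + c')` commutes with the maps. -/
theorem IntlHom.of_g (hc : 0 ≤ c) (hc' : 0 ≤ c')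
    (hg : ∀ s (hs : 0 < s) (ht : 0 < s + c') (h1 : 0 < L * s)
      (h : L * s + c ≤ L * (s + c')) x,
      I'.g s (s + c') hs le_rfl (ψ.r (s + c') ht x) =
        φ.r s hs (I.g (L * s) (L * (s + c')) h1 h x))
    (hcc : c ≤ L * c') : IntlHom I I' hc hc' φ ψ := by
  refine IntlHom.of_gFam hc hc' fun o => PM.Fam.ext' fun s hs => ?_
  have ht : 0 < s + c' := by linarith
  have h1 : 0 < L * s := mul_pos φ.L0 hs
  have h2 : 0 < L * (s + c') := mul_pos φ.L0 ht
  have h : L * s + c ≤ L * (s + c') := by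
    rw [mul_add]
    linarith
  have e1 := hg s hs ht h1 h (o.z (L * (s + c')) h2)
  have e2 := I.symm.f_fam hc o h1 h2 h
  change I.g (L * s) (L * (s + c')) h1 h (o.z _ h2) = _ at e2
  rw [e2] at e1
  exact e1

end Hom

/-- Morphisms of Wang data. -/
structure WangHom {m : ℕ} {G X G' X' : ℕ → PM k} {c c' : ℝ} (L : ℝ) (w : Wang m G X c)
    (w' : Wang m G' X' c') (φG : ∀ q, PMHom L (G q) (G' q)) (φX : ∀ q, PMHom L (X q) (X' q)) where
  P : ∀ q, PMHom L (w.P q) (w'.P q)
  Q : ∀ q, PMHom L (w.Q q) (w'.Q q)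
  α : ∀ q t ht (ht' : 0 < L * t) x,
    w'.α q t ht ((P q).r t ht x) = (φX q).r t ht (w.α q (L * t) ht' x)
  β : ∀ q t ht (ht' : 0 < L * t) x,
    w'.β q t ht ((φX q).r t ht x) = (Q q).r t ht (w.β q (L * t) ht' x)
  δ : ∀ q t ht (ht' : 0 < L * t) x,
    w'.δ q t ht ((Q q).r t ht x) = (P (q + 1)).r t ht (w.δ q (L * t) ht' x)
  iQ : ∀ q, IntlHom (w.iQ q) (w'.iQ q) w.c0 w'.c0 (Q q) (φG q)
  iP : ∀ q, IntlHom (w.iP q) (w'.iP q) w.c0 w'.c0 (P (q + (m + 1))) (φG q)

section Nat

variable {m : ℕ} {G X G' X' : ℕ → PM k} {L c c' B C B0 B1 B' C' B0' B1' : ℝ}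
  {w : Wang m G X c} {w' : Wang m G' X' c'} {b : Based m G B C B0} {b' : Based m G' B' C' B0'}
  {φG : ∀ q, PMHom L (G q) (G' q)} {φX : ∀ q, PMHom L (X q) (X' q)}

/-- `th (om (j + 1))` as a family. -/
theorem th_fam (F : Free w b B1) (j : ℕ) (s : ℝ) (hs : 0 < s) :
    ((w.iP (m * j)).fFam w.c0 (w.dκ' b j)).z s hs = F.cf (j + 1) • (b.om j).z s hs := by
  have hc := w.c0
  have h1 : 0 < s + c := by linarith
  have h2 : 0 < s + c + c := by linarith
  rw [← F.th j s (s + c) (s + c + c) hs h1 h2 le_rfl le_rfl, w.κ_eq b (j + 1) h1 h2 le_rfl]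
  rfl

variable (H : WangHom L w w' φG φX) {a : ℕ → k}
  (ha : ∀ j t (ht : 0 < t) (ht' : 0 < L * t),
    (φG (m * j)).r t ht ((b.om j).z (L * t) ht') = a j • (b'.om j).z t ht)

include H ha

theorem hom_κ (j : ℕ) (t : ℝ) (ht : 0 < t) (ht' : 0 < L * t) :
    (H.Q (m * j)).r t ht ((w.κ b j).z (L * t) ht') = a j • (w'.κ b' j).z t ht := by
  have hc := w'.c0
  have h1 : 0 < t + c' := by linarith
  have e := congrArg (fun z => z.z t ht) ((H.iQ (m * j)).g (b.om j))
  change (w'.iQ (m * j)).g t (t + c') ht le_rfl ((φG (m * j)).r (t + c') h1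
    ((b.om j).z (L * (t + c')) _)) = (H.Q (m * j)).r t ht ((w.κ b j).z (L * t) _) at e
  rw [ha, map_smul] at e
  exact e.symm

theorem hom_dκ (j : ℕ) (t : ℝ) (ht : 0 < t) (ht' : 0 < L * t) :
    (H.P (m * j + (m + 1))).r t ht ((w.dκ' b j).z (L * t) ht') = a (j + 1) • (w'.dκ' b' j).z t ht := by
  have e := H.δ (m * (j + 1)) t ht ht' ((w.κ b (j + 1)).z (L * t) ht')
  rw [hom_κ H ha (j + 1) t ht ht', map_smul] at e
  exact e.symm

/-- **The structure constants under a morphism of Wang data.** -/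
theorem cf_hom (F : Free w b B1) (F' : Free w' b' B1') (j : ℕ) :
    F.cf (j + 1) * a j = a (j + 1) * F'.cf (j + 1) := by
  obtain ⟨T, hT⟩ := exists_om_ne b' j
  have hc := w'.c0
  have hr : 0 < max T 1 := lt_max_of_lt_right one_pos
  have hs : 0 < max T 1 + c' := by linarith
  have e := congrArg (fun z => z.z (max T 1) hr) ((H.iP (m * j)).f (w.dκ' b j))
  have h1 : ((w'.iP (m * j)).fFam w'.c0 ((H.P (m * j + (m + 1))).fam (w.dκ' b j))).z
      (max T 1) hr = a (j + 1) • (F'.cf (j + 1) • (b'.om j).z (max T 1) hr) := by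
    rw [← th_fam F' j (max T 1) hr]
    change (w'.iP (m * j)).f (max T 1) (max T 1 + c') hr le_rfl
      ((H.P (m * j + (m + 1))).r (max T 1 + c') hs ((w.dκ' b j).z (L * (max T 1 + c')) _)) = _
    rw [hom_dκ H ha j, map_smul]
    rfl
  have h2 : ((φG (m * j)).fam ((w.iP (m * j)).fFam w.c0 (w.dκ' b j))).z (max T 1) hr =
      F.cf (j + 1) • (a j • (b'.om j).z (max T 1) hr) := by
    have hL : 0 < L * max T 1 := mul_pos (φG 0).L0 hr
    change (φG (m * j)).r (max T 1) hr (((w.iP (m * j)).fFam w.c0 (w.dκ' b j)).z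
      (L * max T 1) hL) = _
    rw [th_fam F j (L * max T 1) hL, map_smul, ha]
  have h3 : a (j + 1) • (F'.cf (j + 1) • (b'.om j).z (max T 1) hr) =
      F.cf (j + 1) • (a j • (b'.om j).z (max T 1) hr) := h1.symm.trans (e.trans h2)
  rw [smul_smul, smul_smul] at h3
  have h4 : (F.cf (j + 1) * a j - a (j + 1) * F'.cf (j + 1)) • (b'.om j).z (max T 1) hr = 0 := by
    rw [sub_smul, h3, sub_self]
  rcases smul_eq_zero.1 h4 with h5 | h5
  · exact sub_eq_zero.1 h5
  · exact absurd h5 (hT _ hr (le_max_left _ _))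

/-- **The classes `y j` under a morphism of Wang data.** -/
theorem hom_y (F : Free w b B1) (F' : Free w' b' B1') (j : ℕ) (t : ℝ) (ht : 0 < t)
    (ht' : 0 < L * t) :
    (φX (m * j + (m + 1))).r t ht ((F.y j).z (L * t) ht') = a j • (F'.y j).z t ht := by
  have hc := w.c0
  have hc' := w'.c0
  have h1 : 0 < L * t + c := by linarith
  have h2 : 0 < t + c' := by linarith
  rw [F.y_def j (L * t) (L * t + c) ht' h1 le_rfl, F'.y_def j t (t + c') ht h2 le_rfl, ← H.α]
  have e := congrArg (fun z => z.z t ht) ((H.iP (m * j)).g (b.om j))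
  change (w'.iP (m * j)).g t (t + c') ht le_rfl ((φG (m * j)).r (t + c') h2
    ((b.om j).z (L * (t + c')) _)) = (H.P (m * j + (m + 1))).r t ht
      ((w.iP (m * j)).g (L * t) (L * t + c) ht' le_rfl ((b.om j).z (L * t + c) _)) at e
  rw [← e, ha, map_smul, map_smul]

/-- **The classes `x j` under a morphism of Wang data.** -/
theorem hom_x (hB1' : 0 ≤ B1') (F : Free w b B1) (F' : Free w' b' B1') (j : ℕ) (hj : F.cf j = 0)
    (t : ℝ) (ht : 0 < t) (ht' : 0 < L * t) :
    (φX (m * j)).r t ht ((F.x j).z (L * t) ht') = a j • (F'.x j).z t ht := by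
  obtain ⟨d, hd⟩ := (F'.line_x j).fam hB1' ((φX (m * j)).fam (F.x j))
  have hc := w.c0
  have hc' := w'.c0
  by_cases hj' : F'.cf j = 0
  · obtain ⟨T, hT⟩ := exists_om_ne b' j
    have hs : 0 < max T 1 := lt_max_of_lt_right one_pos
    have ht1 : 0 < max T 1 + c' := by linarith
    have hLs : 0 < L * max T 1 := mul_pos (φG 0).L0 hs
    have hLt : 0 < L * (max T 1 + c') := mul_pos (φG 0).L0 ht1
    -- the family `β (x j)`
    have e := congrArg (fun z => z.z (max T 1) hs) ((H.iQ (m * j)).f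
      ((F.x j).map (fun t ht => w.β (m * j) t ht) (fun s t hs ht h x => w.β_nat _ s t hs ht h x)))
    have h1 : ((w'.iQ (m * j)).fFam w'.c0 ((H.Q (m * j)).fam ((F.x j).map
        (fun t ht => w.β (m * j) t ht) (fun s t hs ht h x => w.β_nat _ s t hs ht h x)))).z
          (max T 1) hs = d • (b'.om j).z (max T 1) hs := by
      change (w'.iQ (m * j)).f (max T 1) (max T 1 + c') hs le_rfl ((H.Q (m * j)).r
        (max T 1 + c') ht1 (w.β (m * j) (L * (max T 1 + c')) hLt
          ((F.x j).z (L * (max T 1 + c')) hLt))) = _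
      have h2 : (φX (m * j)).r (max T 1 + c') ht1 ((F.x j).z (L * (max T 1 + c')) hLt) =
        d • (F'.x j).z (max T 1 + c') ht1 := hd (max T 1 + c') ht1
      rw [← H.β, h2, map_smul, map_smul, F'.x_om j hj' _ _ hs ht1 le_rfl]
    have h3 : ((φG (m * j)).fam ((w.iQ (m * j)).fFam w.c0 ((F.x j).map
        (fun t ht => w.β (m * j) t ht) (fun s t hs ht h x => w.β_nat _ s t hs ht h x)))).z
          (max T 1) hs = a j • (b'.om j).z (max T 1) hs := by
      rw [← ha j (max T 1) hs hLs, ← F.x_om j hj (L * max T 1) (L * max T 1 + c) hLs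
        (by linarith) le_rfl]
      rfl
    have h4 : d • (b'.om j).z (max T 1) hs = a j • (b'.om j).z (max T 1) hs :=
      h1.symm.trans (e.trans h3)
    have h5 : (d - a j) • (b'.om j).z (max T 1) hs = 0 := by rw [sub_smul, h4, sub_self]
    rcases smul_eq_zero.1 h5 with h6 | h6
    · rw [sub_eq_zero] at h6
      rw [← h6]
      exact hd t ht
    · exact absurd h6 (hT _ hs (le_max_left _ _))
  · rw [F'.x_zero j hj', smul_zero]
    have h2 : (φX (m * j)).r t ht ((F.x j).z (L * t) ht') = d • (F'.x j).z t ht := hd t ht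
    rw [h2, F'.x_zero j hj', smul_zero]

/-- A structure constant is nonzero iff its image is nonzero. -/
theorem cf_ne_iff (ha0 : ∀ j, a j ≠ 0) (F : Free w b B1) (F' : Free w' b' B1') (j : ℕ) :
    F.cf j ≠ 0 ↔ F'.cf j ≠ 0 := by
  cases j with
  | zero => rw [F.cf0, F'.cf0]
  | succ j =>
    have e := cf_hom H ha F F' j
    constructor
    · intro h h0
      rw [h0, mul_zero] at e
      exact mul_ne_zero h (ha0 j) e
    · intro h h0
      rw [h0, zero_mul] at e
      exact mul_ne_zero (ha0 (j + 1)) h e.symm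

end Nat

/-! ### The signs -/

section Sign

variable {m : ℕ} {G G' : ℕ → PM k} {L B C B0 B' C' B0' : ℝ}
  {b : Based m G B C B0} {b' : Based m G' B' C' B0'} {φG : ∀ q, PMHom L (G q) (G' q)}

/-- **The sign of an operator on `om j`**, if `om j` has a non-zero image `a j • om' j`. -/
theorem sign_hom (hB : 0 ≤ B) {a : ℕ → k}
    (ha : ∀ j t (ht : 0 < t) (ht' : 0 < L * t),
      (φG (m * j)).r t ht ((b.om j).z (L * t) ht') = a j • (b'.om j).z t ht)
    {OG : ∀ q, PMOp (G q)} {OG' : ∀ q, PMOp (G' q)}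
    (hop : ∀ q t (ht : 0 < t) (ht' : 0 < L * t) x,
      (φG q).r t ht ((OG q).r (L * t) ht' x) = (OG' q).r t ht ((φG q).r t ht x))
    {ε : ℕ → k} (j : ℕ) (hj : a j ≠ 0)
    (hε : ∀ t ht, (OG' (m * j)).r t ht ((b'.om j).z t ht) = ε j • (b'.om j).z t ht) (t : ℝ)
    (ht : 0 < t) : (OG (m * j)).r t ht ((b.om j).z t ht) = ε j • (b.om j).z t ht := by
  obtain ⟨e, he⟩ := (b.line j).fam hB ((OG (m * j)).fam (b.om j))
  obtain ⟨T, hT⟩ := exists_om_ne b' j
  have hs : 0 < max T 1 := lt_max_of_lt_right one_pos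
  have hLs : 0 < L * max T 1 := mul_pos (φG 0).L0 hs
  have h1 := he (L * max T 1) hLs
  change (OG (m * j)).r (L * max T 1) hLs ((b.om j).z (L * max T 1) hLs) = _ at h1
  have h2 := congrArg ((φG (m * j)).r (max T 1) hs) h1
  rw [hop, ha, map_smul, map_smul, ha, hε, smul_smul, smul_smul] at h2
  have h3 : (a j * ε j - e * a j) • (b'.om j).z (max T 1) hs = 0 := by
    rw [sub_smul, h2, sub_self]
  rcases smul_eq_zero.1 h3 with h4 | h4
  · have h5 : a j * (ε j - e) = 0 := by linear_combination h4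
    rcases mul_eq_zero.1 h5 with h6 | h6
    · exact absurd h6 hj
    · have h7 : e = ε j := (sub_eq_zero.1 h6).symm
      rw [← h7]
      exact he t ht
  · exact absurd h4 (hT _ hs (le_max_left _ _))

/-- Up to a scalar, the image of `om j` is `om' j`. -/
theorem exists_scalar_hom (hB' : 0 ≤ B') (j : ℕ) (φ : PMHom L (G (m * j)) (G' (m * j))) :
    ∃ a : k, ∀ t (ht : 0 < t) (ht' : 0 < L * t),
      φ.r t ht ((b.om j).z (L * t) ht') = a • (b'.om j).z t ht := by
  obtain ⟨a, h⟩ := (b'.line j).fam hB' (φ.fam (b.om j))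
  exact ⟨a, fun t ht ht' => h t ht⟩

end Sign

end Vale.Agent.P216.H901D
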