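import Vale.Agent.P216.H901D.THom
import Vale.Agent.P216.D337.TrMap
import Vale.Agent.P216.D754.Goals

/-!
# The fibrewise map `w ↦ (w 0, G ∘ w)` as a morphism of trivialised families (P216-D, [D-WANG])

`trivHomG`: for `G : S → N` Lipschitz with constant `K`, the maps `FL S t → PY G G univ (K t)` and
`P y₀ y₀ t → P (G y₀) (G y₀) (K t)` form a `TrivHom` from `trivOf C` to `trivG C`.
`wangHomG`, `cf_G`, `x_G`, `y_G`, `sign_G`: the consequences for the Wang data.
-/

set_option linter.unusedVariables false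
set_option linter.unusedSectionVars false

open Set BoundedContinuousFunction

namespace Vale.Agent.P216.H901D

open Vale.Agent.P216.AS Vale.Agent.P216.PS Vale.Agent.P216.MV337 Vale.Agent.P216.D337
open Vale.Agent.P216.C337 (PY PY_mono TrY)
open Vale.Agent.P216.H901 (PM PMa Hp ovr Cu cub bdc tr on Triv Wang Based Free Mono mono_empty)
open Vale.Agent.P216.H754B (cuM_enc WangOp PMOp XP GP opP sg)

theorem cuM_eq {E E' : Type} (f : E → E') : ∀ n, H754B.cuM f n = H901.cuM f n
  | 0 => rfl
  | n + 1 => by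
    change Prod.map (H754B.cuM f n) id = Prod.map (H901.cuM f n) id
    rw [cuM_eq f n]

section inst

variable {Y N : Type} [MetricSpace Y] [CompactSpace Y] [MetricSpace N] [CompactSpace N] {G : Y → N}
  {K ℓ : ℝ} {y₀ : Y} {Tp Tm : Y → ℝ → Y} {m : ℕ}

/-- The fibrewise map over `Y`. -/
noncomputable def evG (hG : LipC G K) (hK : 0 < K) :
    EvHom K (evz (M := Y)) (fun t => FL Y t) (Prod.fst : Y × (ℝ →ᵇ N) → Y)
      (fun t => PY G G univ t) :=
  EvHom.const hK (phiY G K) (fun s t _ h => PY_mono le_rfl h)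
    (fun t ht => (map_phiY hG hK univ t).mono (fun w hw => ⟨hw, mem_univ _⟩)
      fun w hw => phiY_mem hG hK ⟨hw, mem_univ _⟩) fun t ht w hw => rfl

/-- The map of the based loops. -/
noncomputable def omG (hG : LipC G K) (hK : 0 < K) (y₀ : Y) :
    SpHom K (fun t => P y₀ y₀ t) (fun _ => ∅) (fun t => P (G y₀) (G y₀) t) (fun _ => ∅) :=
  SpHom.const hK (fun w : ℝ →ᵇ Y => gm G K w) (fun s t _ h => P_mono h) mono_empty
    (fun t ht => map_gm_P hG hK y₀ y₀ t) fun t ht => mapsTo_empty _ _

/-- **The fibrewise map is a morphism of trivialised families.** -/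
noncomputable def trivHomG (C : Caps (m + 1) Y y₀) (hG : LipC G K) (hK : 0 < K)
    (hp : MV337.Tr C.Dp y₀ ℓ Tp) (hm : MV337.Tr C.Dm y₀ ℓ Tm) :
    TrivHom K (trivOf C hp hm) (trivG C hG hK hp hm) where
  hcc := le_of_eq (by ring)
  dm := rfl
  dp := rfl
  RX := evG hG hK
  RO := omG hG hK y₀
  tm t ht := by
    have hn := hm.nonneg
    have hmap := ((omG hG hK y₀).map (t + 2 * ℓ) (by linarith)).comp
      ((trivOf C hp hm).tm.f_map t ht)
    refine C337.hp_congr (H550.hp_refl hmap (mapsTo_empty _ _)) (fun w _ => rfl) fun w hw => ?_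
    exact (trivG_tm C hG hK hp hm ht.le hw).symm
  tp t ht := by
    have hn := hm.nonneg
    have h2 : 0 < t + 2 * ℓ := by linarith
    have hmap := (((omG hG hK y₀).cu (m + 1)).map (t + 2 * ℓ) h2).comp
      ((trivOf C hp hm).tp.f_map t ht)
    have hsub := (((omG hG hK y₀).cu (m + 1)).sub (t + 2 * ℓ) h2).comp
      ((trivOf C hp hm).tp.f_sub t ht)
    refine C337.hp_congr (H550.hp_refl hmap hsub) (fun w _ => rfl) fun w hw => ?_
    have e := trivG_tp C hG hK hp hm ht.le hw
    rw [cuM_eq] at e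
    exact e.symm

end inst

end Vale.Agent.P216.H901D
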