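import Vale.Agent.P216.H901D.Hom
import Vale.Agent.P216.H901.WangOp
import Vale.Agent.P216.H754B.Rev

/-!
# Morphisms of trivialised families (P216-D, block [D-WANG])

`TrivHom L T' T`: maps `X' t → X (L t)` over `M` and `Om' t → Om (L t)`, compatible with the
trivialisations up to homotopy.  They give a morphism of the Wang data (`TrivHom.wangHom`).
-/

set_option linter.unusedVariables false

open Set

namespace Vale.Agent.P216.H901D

open Vale.Agent.P216.AS Vale.Agent.P216.H83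
open Vale.Agent.P216.H901

variable {k : Type} [Field k]

/-! ### Maps of families of pairs -/

/-- Maps `(A t, A' t) → (B (L t), B' (L t))`, natural up to homotopy. -/
structure SpHom {E F : Type} [PseudoMetricSpace E] [PseudoMetricSpace F] (L : ℝ)
    (A A' : ℝ → Set E) (B B' : ℝ → Set F) where
  L0 : 0 < L
  r : ℝ → E → F
  map : ∀ t, 0 < t → IsMap (tr E) (tr F) (A t) (B (L * t)) (r t)
  sub : ∀ t, 0 < t → MapsTo (r t) (A' t) (B' (L * t))
  nat : ∀ s t, 0 < s → s ≤ t → Hp (A s) (A' s) (B (L * t)) (B' (L * t)) (r s) (r t)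

section Gen

variable {E F : Type} [PseudoMetricSpace E] [PseudoMetricSpace F] {L : ℝ} {A A' : ℝ → Set E}
  {B B' : ℝ → Set F}

/-- The map of persistence modules of a map of families of pairs. -/
noncomputable def SpHom.pm (R : SpHom L A A' B B') (k : Type) [Field k] (hA : Mono A)
    (hA' : Mono A') (hB : Mono B) (hB' : Mono B') (hAA : ∀ t, A' t ⊆ A t) (q : ℕ) :
    PMHom L (PMr k B B' hB hB' q) (PMr k A A' hA hA' q) where
  L0 := R.L0
  r t ht := pullR (on k) (R.map t ht) (hAA t) (R.sub t ht) q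
  nat s t hs h ht hLs hL x := by
    have m1 : IsMap (tr E) (tr F) (A s) (B (L * t)) (R.r t) :=
      (R.map t ht).mono (hA s t hs h) fun x hx => (R.map t ht).mapsX (hA s t hs h hx)
    have s1 : MapsTo (R.r t) (A' s) (B' (L * t)) := fun x hx => R.sub t ht (hA' s t hs h hx)
    have m2 : IsMap (tr E) (tr F) (A s) (B (L * t)) (R.r s) :=
      (R.map s hs).mono le_rfl fun x hx => hB _ _ hLs hL ((R.map s hs).mapsX hx)
    have s2 : MapsTo (R.r s) (A' s) (B' (L * t)) := fun x hx => hB' _ _ hLs hL (R.sub s hs hx)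
    have e1 : (PMr k A A' hA hA' q).ρ s t hs h
        (pullR (on k) (R.map t ht) (hAA t) (R.sub t ht) q x) =
        pullR (on k) m1 (hAA s) s1 q x := by
      obtain ⟨y, hy, rfl⟩ := H.exists_mk x
      rfl
    have e2 : pullR (on k) (R.map s hs) (hAA s) (R.sub s hs) q
        ((PMr k B B' hB hB' q).ρ (L * s) (L * t) hLs hL x) =
        pullR (on k) m2 (hAA s) s2 q x := by
      obtain ⟨y, hy, rfl⟩ := H.exists_mk x
      rfl
    exact e1.trans ((LinearMap.congr_fun ((R.nat s t hs h).pullR_eq (k := k) (hAA s) m2 s2 m1 s1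
      q) x).symm.trans e2.symm)

/-- The map of persistence modules, absolute cohomology. -/
noncomputable def SpHom.pma {A : ℝ → Set E} {B : ℝ → Set F}
    (R : SpHom L A (fun _ => ∅) B (fun _ => ∅)) (k : Type) [Field k]
    (hA : Mono A) (hB : Mono B) (q : ℕ) : PMHom L (PMa k B hB q) (PMa k A hA q) where
  L0 := R.L0
  r t ht := pull (on k) (R.map t ht) q
  nat s t hs h ht hLs hL x := by
    have e := (SpHom.pm R k hA mono_empty hB mono_empty (fun t => empty_subset _) q).nat s t hs h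
      ht hLs hL (absE k (B (L * t)) q x)
    have e1 : (PMr k A (fun _ => ∅) hA mono_empty q).ρ s t hs h
        ((SpHom.pm R k hA mono_empty hB mono_empty (fun t => empty_subset _) q).r t ht
          (absE k (B (L * t)) q x)) =
        absE k (A s) q ((PMa k A hA q).ρ s t hs h (pull (on k) (R.map t ht) q x)) := by
      obtain ⟨y, hy, rfl⟩ := H.exists_mk x
      rfl
    have e2 : (SpHom.pm R k hA mono_empty hB mono_empty (fun t => empty_subset _) q).r s hs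
        ((PMr k B (fun _ => ∅) hB mono_empty q).ρ (L * s) (L * t) hLs hL
          (absE k (B (L * t)) q x)) =
        absE k (A s) q (pull (on k) (R.map s hs) q ((PMa k B hB q).ρ (L * s) (L * t) hLs hL x)) := by
      obtain ⟨y, hy, rfl⟩ := H.exists_mk x
      rfl
    exact (absE k (A s) q).injective (e1.symm.trans (e.trans e2))

end Gen

section Int

variable {E F E₁ F₁ : Type} [PseudoMetricSpace E] [PseudoMetricSpace F] [PseudoMetricSpace E₁]
  [PseudoMetricSpace F₁] {L : ℝ}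

/-- Interleavings of spaces commute with maps of families of pairs. -/
theorem intlHom {A A' : ℝ → Set E} {B B' : ℝ → Set F} {A₁ A₁' : ℝ → Set E₁} {B₁ B₁' : ℝ → Set F₁}
    {c c' : ℝ} (S₂ : SpIntl B B' B₁ B₁' c) (S : SpIntl A A' A₁ A₁' c')
    (R : SpHom L A A' B B') (R₁ : SpHom L A₁ A₁' B₁ B₁') (k : Type) [Field k]
    (hA : Mono A) (hA' : Mono A') (hB : Mono B) (hB' : Mono B')
    (hA₁ : Mono A₁) (hA₁' : Mono A₁') (hB₁ : Mono B₁) (hB₁' : Mono B₁')
    (hAA : ∀ t, A' t ⊆ A t) (hBB : ∀ t, B' t ⊆ B t) (hAA₁ : ∀ t, A₁' t ⊆ A₁ t)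
    (hBB₁ : ∀ t, B₁' t ⊆ B₁ t) (hc : 0 ≤ c) (hc' : 0 ≤ c') (hcc : c ≤ L * c') (q : ℕ)
    (h : ∀ t, 0 < t → Hp (A t) (A' t) (B₁ (L * (t + c'))) (B₁' (L * (t + c')))
      (R₁.r (t + c') ∘ S.f t) (S₂.f (L * t) ∘ R.r t)) :
    IntlHom (S₂.intl k hB hB' hB₁ hB₁' hBB hBB₁ hc q) (S.intl k hA hA' hA₁ hA₁' hAA hAA₁ hc' q)
      hc hc' (R.pm k hA hA' hB hB' hAA q) (R₁.pm k hA₁ hA₁' hB₁ hB₁' hAA₁ q) := by
  refine IntlHom.of_g hc hc' (fun s hs ht hLs hL x => ?_) hcc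
  have m1 : IsMap (tr E) (tr F₁) (A s) (B₁ (L * (s + c'))) (R₁.r (s + c') ∘ S.f s) :=
    (R₁.map (s + c') ht).comp (S.f_map s hs)
  have s1 : MapsTo (R₁.r (s + c') ∘ S.f s) (A' s) (B₁' (L * (s + c'))) :=
    (R₁.sub (s + c') ht).comp (S.f_sub s hs)
  have m2 : IsMap (tr E) (tr F₁) (A s) (B₁ (L * (s + c'))) (S₂.f (L * s) ∘ R.r s) :=
    (S₂.map_f hB₁ hc hLs hL).comp (R.map s hs)
  have s2 : MapsTo (S₂.f (L * s) ∘ R.r s) (A' s) (B₁' (L * (s + c'))) :=
    (S₂.sub_f hB₁' hc hLs hL).comp (R.sub s hs)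
  have e1 : (S.intl k hA hA' hA₁ hA₁' hAA hAA₁ hc' q).g s (s + c') hs le_rfl
      ((R₁.pm k hA₁ hA₁' hB₁ hB₁' hAA₁ q).r (s + c') ht x) = pullR (on k) m1 (hAA s) s1 q x := by
    obtain ⟨y, hy, rfl⟩ := H.exists_mk x
    rfl
  have e2 : (R.pm k hA hA' hB hB' hAA q).r s hs
      ((S₂.intl k hB hB' hB₁ hB₁' hBB hBB₁ hc q).g (L * s) (L * (s + c')) hLs hL x) =
      pullR (on k) m2 (hAA s) s2 q x := by
    obtain ⟨y, hy, rfl⟩ := H.exists_mk x
    rfl
  exact e1.trans ((LinearMap.congr_fun ((h s hs).pullR_eq (k := k) (hAA s) m1 s1 m2 s2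
    q) x).trans e2.symm)

end Int

/-! ### Transport along isomorphisms -/

section Iso

variable {L : ℝ}

/-- The isomorphisms commute with the maps. -/
def IsoHom {A A₁ A' A₁' : PM k} (I : PMIso A A₁) (I' : PMIso A' A₁') (φ : PMHom L A A')
    (φ₁ : PMHom L A₁ A₁') : Prop :=
  ∀ t ht (ht' : 0 < L * t) x, I'.e t ht (φ.r t ht x) = φ₁.r t ht (I.e (L * t) ht' x)

theorem IsoHom.symm {A A₁ A' A₁' : PM k} {I : PMIso A A₁} {I' : PMIso A' A₁'}
    {φ : PMHom L A A'} {φ₁ : PMHom L A₁ A₁'} (h : IsoHom I I' φ φ₁) :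
    IsoHom I.symm I'.symm φ₁ φ := fun t ht ht' x => by
  change (I'.e t ht).symm _ = φ.r t ht ((I.e (L * t) ht').symm x)
  rw [LinearEquiv.symm_apply_eq, h t ht ht', LinearEquiv.apply_symm_apply]

theorem isoHom_refl {A A' : PM k} (φ : PMHom L A A') : IsoHom (isoRefl A) (isoRefl A') φ φ :=
  fun _ _ _ _ => rfl

theorem IntlHom.iso {A A₁ A' A₁' B B₁ B' B₁' : PM k} {c c' : ℝ} (I : PMIso A A₁)
    (J : PMIso B B₁) (I' : PMIso A' A₁') (J' : PMIso B' B₁') {K : Intl A₁ B₁ c}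
    {K' : Intl A₁' B₁' c'} (hc : 0 ≤ c) (hc' : 0 ≤ c') {φA : PMHom L A A'} {φA₁ : PMHom L A₁ A₁'}
    {φB : PMHom L B B'} {φB₁ : PMHom L B₁ B₁'} (hI : IsoHom I I' φA φA₁)
    (hJ : IsoHom J J' φB φB₁) (hK : IntlHom K K' hc hc' φA₁ φB₁) :
    IntlHom (PMIso.intl I J hc K) (PMIso.intl I' J' hc' K') hc hc' φA φB := by
  refine IntlHom.of_gFam hc hc' fun o => H754B.PM.Fam.ext' fun s hs => ?_
  have hL0 := φA.L0
  have ht : 0 < s + c' := by linarith
  have hLs : 0 < L * s := mul_pos hL0 hs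
  have hLt : 0 < L * (s + c') := mul_pos hL0 ht
  have e := congrArg (fun z => z.z s hs) (hK.g (o.map (fun t ht => (J.e t ht).toLinearMap)
    (fun s t hs ht h x => J.nat s t hs ht h x)))
  change K'.g s (s + c') hs le_rfl (φB₁.r (s + c') ht (J.e (L * (s + c')) hLt
    (o.z (L * (s + c')) hLt))) = φA₁.r s hs (K.g (L * s) (L * s + c) hLs le_rfl
      (J.e (L * s + c) _ (o.z (L * s + c) _))) at e
  change (I'.e s hs).symm (K'.g s (s + c') hs le_rfl (J'.e (s + c') _ (φB.r (s + c') _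
    (o.z (L * (s + c')) _)))) = φA.r s hs ((I.e (L * s) hLs).symm (K.g (L * s) (L * s + c) hLs
      le_rfl (J.e (L * s + c) _ (o.z (L * s + c) _))))
  rw [hJ (s + c') ht hLt, e]
  exact hI.symm s hs hLs _

end Iso

/-! ### Maps over the base -/

section Ev

/-- Maps `X' t → X (L t)` over `M`, natural up to homotopy over `M`. -/
structure EvHom {E' E M : Type} [PseudoMetricSpace E'] [PseudoMetricSpace E] (L : ℝ) (ev' : E' → M)
    (X' : ℝ → Set E') (ev : E → M) (X : ℝ → Set E) where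
  L0 : 0 < L
  r : ℝ → E' → E
  map : ∀ t, 0 < t → IsMap (tr E') (tr E) (X' t) (X (L * t)) (r t)
  ev_r : ∀ t, 0 < t → ∀ x ∈ X' t, ev (r t x) = ev' x
  nat : ∀ s t, 0 < s → s ≤ t → ∃ D : ℝ → E' → E, IsHtpy (tr E') (tr E) (X' s) (X (L * t)) D ∧
    (∀ l ∈ Icc (0 : ℝ) 1, ∀ x ∈ X' s, ev (D l x) = ev' x) ∧ EqOn (D 0) (r s) (X' s) ∧
    EqOn (D 1) (r t) (X' s)

/-- Corresponding subfamilies: `X t` over `D`, or `∅`. -/
structure Sb2 {E' E M : Type} (L : ℝ) (ev' : E' → M) (X' : ℝ → Set E') (ev : E → M)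
    (X : ℝ → Set E) (A : ℝ → Set E') (B : ℝ → Set E) : Prop where
  sub : ∀ t, A t ⊆ X' t
  st : ∀ s t, 0 < s → s ≤ t → ∀ x ∈ A s, ∀ y ∈ X (L * t), ev y = ev' x → y ∈ B (L * t)

variable {E' E M : Type} {L : ℝ} {ev' : E' → M} {X' : ℝ → Set E'} {ev : E → M} {X : ℝ → Set E}

theorem sb2_self : Sb2 L ev' X' ev X X' X := ⟨fun _ => subset_rfl, fun _ _ _ _ _ _ _ h _ => h⟩

theorem sb2_empty : Sb2 L ev' X' ev X (fun _ => ∅) fun _ => ∅ :=
  ⟨fun _ => empty_subset _, fun _ _ _ _ _ h => h.elim⟩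

theorem sb2_ovr (D : Set M) : Sb2 L ev' X' ev X (ovr ev' X' D) (ovr ev X D) :=
  ⟨fun _ _ h => h.1, fun _ _ _ _ x hx y hy h => ⟨hy, by
    rw [h]
    exact hx.2⟩⟩

/-- The maps of the pairs. -/
def EvHom.sp [PseudoMetricSpace E'] [PseudoMetricSpace E] (R : EvHom L ev' X' ev X)
    {A A' : ℝ → Set E'} {B B' : ℝ → Set E} (h1 : Sb2 L ev' X' ev X A B)
    (h2 : Sb2 L ev' X' ev X A' B') (hAA : ∀ t, A' t ⊆ A t) : SpHom L A A' B B' where
  L0 := R.L0
  r := R.r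
  map t ht := (R.map t ht).mono (h1.sub t) fun x hx => h1.st t t ht le_rfl x hx _
    ((R.map t ht).mapsX (h1.sub t hx)) (R.ev_r t ht x (h1.sub t hx))
  sub t ht x hx := h2.st t t ht le_rfl x hx _ ((R.map t ht).mapsX (h2.sub t hx))
    (R.ev_r t ht x (h2.sub t hx))
  nat s t hs hst := by
    obtain ⟨D, hD, hev, h0, h1'⟩ := R.nat s t hs hst
    refine ⟨D, hD.mono (h1.sub s) fun l hl x hx => h1.st s t hs hst x hx _
      (hD.mapsX l hl (h1.sub s hx)) (hev l hl x (h1.sub s hx)), fun l hl x hx =>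
      h2.st s t hs hst x hx _ (hD.mapsX l hl (h2.sub s hx)) (hev l hl x (h2.sub s hx)),
      fun x hx => h0 (h1.sub s hx), fun x hx => h1' (h1.sub s hx)⟩

/-- The same map for all levels. -/
def EvHom.const [PseudoMetricSpace E'] [PseudoMetricSpace E] (hL : 0 < L) (r : E' → E)
    (hX : Mono X) (map : ∀ t, 0 < t → IsMap (tr E') (tr E) (X' t) (X (L * t)) r)
    (ev_r : ∀ t, 0 < t → ∀ x ∈ X' t, ev (r x) = ev' x) : EvHom L ev' X' ev X where
  L0 := hL
  r _ := r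
  map := map
  ev_r := ev_r
  nat s t hs hst := by
    have h := (map s hs).mono le_rfl fun x hx => hX _ _ (mul_pos hL hs)
      (mul_le_mul_of_nonneg_left hst hL.le) ((map s hs).mapsX hx)
    refine ⟨fun _ => r, ⟨fun _ _ => h.mapsX, fun _ _ i => i.elim, fun ε hε => ?_⟩,
      fun _ _ => ev_r s hs, fun _ _ => rfl, fun _ _ => rfl⟩
    obtain ⟨δ, hδ, hu⟩ := h.uc ε hε
    exact ⟨δ, hδ, fun _ _ _ _ x hx y hy _ hxy => hu x hx y hy hxy⟩

/-- The same map for all levels. -/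
def SpHom.const [PseudoMetricSpace E'] [PseudoMetricSpace E] (hL : 0 < L) (r : E' → E)
    {A A' : ℝ → Set E'} {B B' : ℝ → Set E} (hB : Mono B) (hB' : Mono B')
    (map : ∀ t, 0 < t → IsMap (tr E') (tr E) (A t) (B (L * t)) r)
    (sub : ∀ t, 0 < t → MapsTo r (A' t) (B' (L * t))) : SpHom L A A' B B' where
  L0 := hL
  r _ := r
  map := map
  sub := sub
  nat s t hs hst := by
    have hl : L * s ≤ L * t := mul_le_mul_of_nonneg_left hst hL.le
    have h := (map s hs).mono le_rfl fun x hx => hB _ _ (mul_pos hL hs) hl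
      ((map s hs).mapsX hx)
    refine ⟨fun _ => r, ⟨fun _ _ => h.mapsX, fun _ _ i => i.elim, fun ε hε => ?_⟩,
      fun _ _ x hx => hB' _ _ (mul_pos hL hs) hl (sub s hs hx), fun _ _ => rfl, fun _ _ => rfl⟩
    obtain ⟨δ, hδ, hu⟩ := h.uc ε hε
    exact ⟨δ, hδ, fun _ _ _ _ x hx y hy _ hxy => hu x hx y hy hxy⟩

end Ev

/-! ### Morphisms of trivialised families -/

section Tr

variable {E F E' F' M : Type} [MetricSpace E] [MetricSpace F] [MetricSpace E'] [MetricSpace F']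
  [MetricSpace M] {ev : E → M} {X : ℝ → Set E} {Om : ℝ → Set F} {c : ℝ} {ev' : E' → M}
  {X' : ℝ → Set E'} {Om' : ℝ → Set F'} {c' L : ℝ} {m : ℕ}

/-- `R × id` on the cubes. -/
def SpHom.cu (R : SpHom L Om' (fun _ => ∅) Om (fun _ => ∅)) (n : ℕ) :
    SpHom L (fun t => cub n (Om' t)) (fun t => bdc n (Om' t)) (fun t => cub n (Om t))
      (fun t => bdc n (Om t)) where
  L0 := R.L0
  r t := H901.cuM (R.r t) n
  map t ht := H901.isMap_cuM (R.map t ht) n
  sub t ht := H901.mapsTo_cuM_bdc (R.map t ht).mapsX n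
  nat s t hs h := by
    obtain ⟨D, hD, hD', h0, h1⟩ := R.nat s t hs h
    exact ⟨fun l => H901.cuM (D l) n, H901.isHtpy_cuM hD n,
      fun l hl => H901.mapsTo_cuM_bdc (hD.mapsX l hl) n, H901.eqOn_cuM h0 n, H901.eqOn_cuM h1 n⟩

/-- **A morphism of trivialised families** `(X', Om') → (X, Om)` over `M`, with the time change
`t ↦ L t`. -/
structure TrivHom (L : ℝ) (T' : Triv (m + 1) ev' X' Om' c') (T : Triv (m + 1) ev X Om c) where
  hcc : c ≤ L * c'
  dm : T'.Dm = T.Dm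
  dp : T'.Dp = T.Dp
  RX : EvHom L ev' X' ev X
  RO : SpHom L Om' (fun _ => ∅) Om (fun _ => ∅)
  tm : ∀ t, 0 < t → Hp (ovr ev' X' T'.Dm t) ∅ (Om (L * (t + c'))) ∅
    (RO.r (t + c') ∘ T'.tm.f t) (T.tm.f (L * t) ∘ RX.r t)
  tp : ∀ t, 0 < t → Hp (ovr ev' X' T'.Dp t) (ovr ev' X' (T'.Dp ∩ T'.Dm) t)
    (cub (m + 1) (Om (L * (t + c')))) (bdc (m + 1) (Om (L * (t + c'))))
    (H901.cuM (RO.r (t + c')) (m + 1) ∘ T'.tp.f t) (T.tp.f (L * t) ∘ RX.r t)

namespace TrivHom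

variable {T' : Triv (m + 1) ev' X' Om' c'} {T : Triv (m + 1) ev X Om c} (O : TrivHom L T' T)

include O in
theorem sbm : Sb2 L ev' X' ev X (ovr ev' X' T'.Dm) (ovr ev X T.Dm) := by
  rw [O.dm]
  exact sb2_ovr _

include O in
theorem sbp : Sb2 L ev' X' ev X (ovr ev' X' T'.Dp) (ovr ev X T.Dp) := by
  rw [O.dp]
  exact sb2_ovr _

include O in
theorem sbpm : Sb2 L ev' X' ev X (ovr ev' X' (T'.Dp ∩ T'.Dm)) (ovr ev X (T.Dp ∩ T.Dm)) := by
  rw [O.dp, O.dm]
  exact sb2_ovr _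

/-- The map of the based loops. -/
noncomputable def OG (k : Type) [Field k] (q : ℕ) :
    PMHom L (PMa k Om T.Om_mono q) (PMa k Om' T'.Om_mono q) :=
  O.RO.pma k T'.Om_mono T.Om_mono q

/-- The map of the free loops. -/
noncomputable def OX (k : Type) [Field k] (q : ℕ) :
    PMHom L (PMa k X T.X_mono q) (PMa k X' T'.X_mono q) :=
  (O.RX.sp sb2_self sb2_empty fun _ => empty_subset _).pma k T'.X_mono T.X_mono q

/-- The map of the relative groups. -/
noncomputable def OP (k : Type) [Field k] (q : ℕ) :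
    PMHom L (PMr k X (ovr ev X T.Dm) T.X_mono (mono_ovr T.X_mono _) q)
      (PMr k X' (ovr ev' X' T'.Dm) T'.X_mono (mono_ovr T'.X_mono _) q) :=
  (O.RX.sp sb2_self O.sbm fun t => ovr_sub ev' X' T'.Dm t).pm k T'.X_mono
    (mono_ovr T'.X_mono _) T.X_mono (mono_ovr T.X_mono _) (fun t => ovr_sub ev' X' T'.Dm t) q

/-- The map of the parts over `D₋`. -/
noncomputable def OQ (k : Type) [Field k] (q : ℕ) :
    PMHom L (PMr k (ovr ev X T.Dm) (fun _ => ∅) (mono_ovr T.X_mono _) mono_empty q)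
      (PMr k (ovr ev' X' T'.Dm) (fun _ => ∅) (mono_ovr T'.X_mono _) mono_empty q) :=
  (O.RX.sp O.sbm sb2_empty fun _ => empty_subset _).pm k (mono_ovr T'.X_mono _) mono_empty
    (mono_ovr T.X_mono _) mono_empty (fun t => empty_subset _) q

/-- The map of the parts over `D₊`. -/
noncomputable def OE (k : Type) [Field k] (q : ℕ) :
    PMHom L (PMr k (ovr ev X T.Dp) (ovr ev X (T.Dp ∩ T.Dm)) (mono_ovr T.X_mono _)
        (mono_ovr T.X_mono _) q)
      (PMr k (ovr ev' X' T'.Dp) (ovr ev' X' (T'.Dp ∩ T'.Dm)) (mono_ovr T'.X_mono _)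
        (mono_ovr T'.X_mono _) q) :=
  (O.RX.sp O.sbp O.sbpm fun t => ovr_mono subset_rfl inter_subset_left).pm k
    (mono_ovr T'.X_mono _) (mono_ovr T'.X_mono _) (mono_ovr T.X_mono _) (mono_ovr T.X_mono _)
    (fun t => ovr_mono subset_rfl inter_subset_left) q

variable (h2 : (2 : k) ≠ 0)

theorem α_hom (q : ℕ) (t : ℝ) (ht : 0 < t) (ht' : 0 < L * t)
    (x : Hr (tr E) (on k) (X (L * t)) (ovr ev X T.Dm (L * t)) q) :
    (T'.wang h2).α q t ht ((O.OP k q).r t ht x) =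
      (O.OX k q).r t ht ((T.wang h2).α q (L * t) ht' x) := by
  have m1 : IsMap (tr E') (tr E) (X' t) (X (L * t)) (O.RX.r t) := O.RX.map t ht
  have s1 : MapsTo (O.RX.r t) (ovr ev' X' T'.Dm t) (ovr ev X T.Dm (L * t)) :=
    (O.RX.sp sb2_self O.sbm fun t => ovr_sub ev' X' T'.Dm t).sub t ht
  have s0 : MapsTo (O.RX.r t) (∅ : Set E') (∅ : Set E) := mapsTo_empty _ _
  have e2 := lesA_pull (k := k) m1 (ovr_sub ev' X' T'.Dm t) s1 s0 q x
  have e3 := absE_symm_pull (k := k) m1 s0 q (lesA k (X (L * t)) (ovr ev X T.Dm (L * t)) q x)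
  change (absE k (X' t) q).symm (lesA k (X' t) (ovr ev' X' T'.Dm t) q (pullR (on k) m1
    (ovr_sub ev' X' T'.Dm t) s1 q x)) = pull (on k) m1 q ((absE k (X (L * t)) q).symm
      (lesA k (X (L * t)) (ovr ev X T.Dm (L * t)) q x))
  rw [e3, e2]

theorem β_hom (q : ℕ) (t : ℝ) (ht : 0 < t) (ht' : 0 < L * t)
    (x : Ha (tr E) (on k) (X (L * t)) q) :
    (T'.wang h2).β q t ht ((O.OX k q).r t ht x) =
      (O.OQ k q).r t ht ((T.wang h2).β q (L * t) ht' x) := by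
  have m1 : IsMap (tr E') (tr E) (X' t) (X (L * t)) (O.RX.r t) := O.RX.map t ht
  have s0 : MapsTo (O.RX.r t) (∅ : Set E') (∅ : Set E) := mapsTo_empty _ _
  have m2 : IsMap (tr E') (tr E) (ovr ev' X' T'.Dm t) (ovr ev X T.Dm (L * t)) (O.RX.r t) :=
    (O.RX.sp O.sbm sb2_empty fun _ => empty_subset _).map t ht
  have e2 := lesB_pull (k := k) m1 m2 s0 (ovr_sub ev' X' T'.Dm t)
    (ovr_sub ev X T.Dm (L * t)) q (absE k (X (L * t)) q x)
  have e3 := absE_pull (k := k) m1 s0 q x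
  change lesB k (ovr_sub ev' X' T'.Dm t) q (absE k (X' t) q (pull (on k) m1 q x)) =
    pullR (on k) m2 (empty_subset _) s0 q
      (lesB k (ovr_sub ev X T.Dm (L * t)) q (absE k (X (L * t)) q x))
  rw [e2, e3]

theorem δ_hom (q : ℕ) (t : ℝ) (ht : 0 < t) (ht' : 0 < L * t)
    (x : Hr (tr E) (on k) (ovr ev X T.Dm (L * t)) ∅ q) :
    (T'.wang h2).δ q t ht ((O.OQ k q).r t ht x) =
      (O.OP k (q + 1)).r t ht ((T.wang h2).δ q (L * t) ht' x) := by
  have m1 : IsMap (tr E') (tr E) (X' t) (X (L * t)) (O.RX.r t) := O.RX.map t ht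
  have s0 : MapsTo (O.RX.r t) (∅ : Set E') (∅ : Set E) := mapsTo_empty _ _
  have s1 : MapsTo (O.RX.r t) (ovr ev' X' T'.Dm t) (ovr ev X T.Dm (L * t)) :=
    (O.RX.sp sb2_self O.sbm fun t => ovr_sub ev' X' T'.Dm t).sub t ht
  have m2 : IsMap (tr E') (tr E) (ovr ev' X' T'.Dm t) (ovr ev X T.Dm (L * t)) (O.RX.r t) :=
    (O.RX.sp O.sbm sb2_empty fun _ => empty_subset _).map t ht
  exact (lesD_pull (k := k) m1 m2 (ovr_sub ev' X' T'.Dm t) s1 s0 q x).symm

theorem isoEmpty_hom {E F : Type} [MetricSpace E] [MetricSpace F] {L : ℝ}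
    {A : ℝ → Set E} {B : ℝ → Set F} (R : SpHom L A (fun _ => ∅) B (fun _ => ∅)) (k : Type)
    [Field k] (hA : Mono A) (hB : Mono B) (q : ℕ) :
    IsoHom (isoEmpty k B hB q) (isoEmpty k A hA q)
      (R.pm k hA mono_empty hB mono_empty (fun t => empty_subset _) q) (R.pma k hA hB q) :=
  fun t ht ht' x => (absE_symm_pull (k := k) (R.map t ht) (R.sub t ht) q x).symm

theorem iQ_hom (q : ℕ) : IntlHom ((T.wang h2).iQ q) ((T'.wang h2).iQ q) (T.wang h2).c0
    (T'.wang h2).c0 (O.OQ k q) (O.OG k q) :=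
  IntlHom.iso ⟨fun t ht => LinearEquiv.refl k _, fun _ _ _ _ _ _ => rfl⟩ _
    ⟨fun t ht => LinearEquiv.refl k _, fun _ _ _ _ _ _ => rfl⟩ _ T.c0 T'.c0
    (fun _ _ _ _ => rfl) (isoEmpty_hom O.RO k T'.Om_mono T.Om_mono q).symm
    (intlHom T.tm T'.tm (O.RX.sp O.sbm sb2_empty fun _ => empty_subset _) O.RO k
      (mono_ovr T'.X_mono _) mono_empty (mono_ovr T.X_mono _) mono_empty T'.Om_mono mono_empty
      T.Om_mono mono_empty (fun t => empty_subset _) (fun t => empty_subset _)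
      (fun t => empty_subset _) (fun t => empty_subset _) T.c0 T'.c0 O.hcc q O.tm)

theorem isoExc_hom (q : ℕ) : IsoHom (T.isoExc h2 q) (T'.isoExc h2 q) (O.OP k q) (O.OE k q) := by
  intro t ht ht' x
  obtain ⟨y, hy, rfl⟩ := H.exists_mk x
  rfl

theorem iP0_hom (q : ℕ) : IntlHom (T.iP0 h2 q) (T'.iP0 h2 q) T.c0 T'.c0 (O.OP k q)
    ((O.RO.cu (m + 1)).pm k (mono_cub (m + 1) T'.Om_mono) (mono_bdc (m + 1) T'.Om_mono)
      (mono_cub (m + 1) T.Om_mono) (mono_bdc (m + 1) T.Om_mono) (fun t => bdc_subset _ _) q) :=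
  IntlHom.iso (T.isoExc h2 q) (isoRefl _) (T'.isoExc h2 q) (isoRefl _) T.c0 T'.c0
    (O.isoExc_hom h2 q) (isoHom_refl _)
    (intlHom T.tp T'.tp (O.RX.sp O.sbp O.sbpm fun t => ovr_mono subset_rfl inter_subset_left)
      (O.RO.cu (m + 1)) k (mono_ovr T'.X_mono _) (mono_ovr T'.X_mono _)
      (mono_ovr T.X_mono _) (mono_ovr T.X_mono _) (mono_cub (m + 1) T'.Om_mono)
      (mono_bdc (m + 1) T'.Om_mono) (mono_cub (m + 1) T.Om_mono) (mono_bdc (m + 1) T.Om_mono)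
      (fun t => ovr_mono subset_rfl inter_subset_left)
      (fun t => ovr_mono subset_rfl inter_subset_left) (fun t => bdc_subset _ _)
      (fun t => bdc_subset _ _) T.c0 T'.c0 O.hcc q O.tp)

theorem isoSus_hom (q : ℕ) :
    IsoHom (isoSus h2 T.Om_mono (m + 1) q) (isoSus h2 T'.Om_mono (m + 1) q)
      ((O.RO.cu (m + 1)).pm k (mono_cub (m + 1) T'.Om_mono) (mono_bdc (m + 1) T'.Om_mono)
        (mono_cub (m + 1) T.Om_mono) (mono_bdc (m + 1) T.Om_mono) (fun t => bdc_subset _ _)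
        (q + (m + 1)))
      (O.RO.pm k T'.Om_mono mono_empty T.Om_mono mono_empty (fun t => empty_subset _) q) :=
  fun t ht ht' x => susN_pull h2 (O.RO.map t ht) (O.RO.sub t ht) q (m + 1)
    ((O.RO.cu (m + 1)).map t ht) ((O.RO.cu (m + 1)).sub t ht) x

theorem iP_hom (q : ℕ) : IntlHom ((T.wang h2).iP q) ((T'.wang h2).iP q) (T.wang h2).c0
    (T'.wang h2).c0 (O.OP k (q + (m + 1))) (O.OG k q) :=
  IntlHom.iso ⟨fun t ht => LinearEquiv.refl k _, fun _ _ _ _ _ _ => rfl⟩ _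
    ⟨fun t ht => LinearEquiv.refl k _, fun _ _ _ _ _ _ => rfl⟩ _ T.c0 T'.c0
    (fun _ _ _ _ => rfl) (isoEmpty_hom O.RO k T'.Om_mono T.Om_mono q).symm
    (IntlHom.iso (isoRefl _) (isoSus h2 T.Om_mono (m + 1) q).symm (isoRefl _)
      (isoSus h2 T'.Om_mono (m + 1) q).symm T.c0 T'.c0 (isoHom_refl _)
      (O.isoSus_hom h2 q).symm (O.iP0_hom h2 (q + (m + 1))))

/-- **The morphism of the Wang data.** -/
noncomputable def wangHom : WangHom L (T.wang h2) (T'.wang h2) (O.OG k) (O.OX k) where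
  P := O.OP k
  Q := O.OQ k
  α := O.α_hom h2
  β := O.β_hom h2
  δ := O.δ_hom h2
  iQ := O.iQ_hom h2
  iP := O.iP_hom h2

end TrivHom

end Tr

end Vale.Agent.P216.H901D
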